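import Vale.Agent.P013.Defs

/-!
# P013: counting in arithmetic progressions
-/

namespace Vale.Agent.P013.H1

open Finset

/-- The product of the prime factors `p ≤ y` of `n`. -/
noncomputable def smallPart (n : ℕ) (y : ℝ) : ℕ :=
  ∏ p ∈ n.primeFactors.filter (fun p : ℕ => (p : ℝ) ≤ y), p

/-- The number of terms divisible by `d` among `m` terms of a progression with step prime to
`d`. -/
lemma count (x0 : ℤ) (M d m : ℕ) (hd : 1 ≤ d) (hM : Nat.Coprime M d) :
    |((((range m).filter fun i : ℕ => (d : ℤ) ∣ x0 + i * M).card : ℝ)) - (m : ℝ) / d| ≤ 1 := by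
  have hd0 : (0 : ℤ) < d := by exact_mod_cast hd
  obtain ⟨u, v, huv⟩ : ∃ u v : ℤ, u * M + v * d = 1 := by
    have : IsCoprime (M : ℤ) (d : ℤ) := Nat.isCoprime_iff_coprime.2 hM
    exact this
  set r : ℕ := ((-x0 * u) % d).toNat with hr
  have hrz : (r : ℤ) = (-x0 * u) % d := by
    rw [hr, Int.toNat_of_nonneg (Int.emod_nonneg _ hd0.ne')]
  have hiff : ∀ i : ℕ, ((d : ℤ) ∣ x0 + i * M) ↔ i ≡ r [MOD d] := by
    intro i
    rw [← Int.natCast_modEq_iff, hrz]
    have h1 : (-x0 * u) % (d : ℤ) ≡ -x0 * u [ZMOD d] := Int.mod_modEq _ _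
    constructor
    · intro h
      have h2 : (i : ℤ) ≡ -x0 * u [ZMOD d] := by
        rw [Int.modEq_iff_dvd]
        have e : -x0 * u - i = (-u) * (x0 + i * M) + (-(i * v)) * d := by
          have : (i : ℤ) * (u * M + v * d) = i := by rw [huv, mul_one]
          linear_combination this
        rw [e]
        exact dvd_add (dvd_mul_of_dvd_right h _) (Dvd.intro_left _ rfl)
      exact h2.trans h1.symm
    · intro h
      have h2 : (i : ℤ) ≡ -x0 * u [ZMOD d] := h.trans h1
      rw [Int.modEq_iff_dvd] at h2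
      have e : x0 + i * M = (-(M : ℤ)) * (-x0 * u - i) + (x0 * v) * d := by
        have : x0 * (u * M + v * d) = x0 := by rw [huv, mul_one]
        linear_combination -this
      rw [e]
      exact dvd_add (dvd_mul_of_dvd_right h2 _) (Dvd.intro_left _ rfl)
  have hcount : ((range m).filter fun i : ℕ => (d : ℤ) ∣ x0 + i * M).card =
      m / d + if r % d < m % d then 1 else 0 := by
    rw [← Nat.count_modEq_card (r := d) (by omega) r (b := m), Nat.count_eq_card_filter_range]
    congr 1
    exact Finset.filter_congr fun i _ => hiff i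
  rw [hcount]
  have hdR : (0 : ℝ) < d := by exact_mod_cast hd
  have h1 : ((m / d : ℕ) : ℝ) ≤ (m : ℝ) / d := Nat.cast_div_le
  have h2 : (m : ℝ) / d < ((m / d : ℕ) : ℝ) + 1 := by
    rw [div_lt_iff₀ hdR]
    have := Nat.lt_div_mul_add (a := m) (b := d) (by omega)
    have h3 : m < (m / d + 1) * d := by linarith [this]
    exact_mod_cast h3
  have h4 : (m : ℝ) / d = ((m / d : ℕ) : ℝ) + ((m % d : ℕ) : ℝ) / d := by
    have := Nat.div_add_mod m d
    have h5 : (m : ℝ) = d * ((m / d : ℕ) : ℝ) + ((m % d : ℕ) : ℝ) := by exact_mod_cast this.symm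
    rw [div_eq_iff hdR.ne', add_mul, div_mul_cancel₀ _ hdR.ne']
    linarith
  split_ifs with h
  · push_cast
    rw [abs_le]
    constructor <;> linarith
  · push_cast
    rw [abs_le]
    constructor <;> linarith

end Vale.Agent.P013.H1
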