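import Vale.Agent.P013.Defs
import Vale.Agent.P031.Mert

/-!
# P013: sums of reciprocals of primes
-/

namespace Vale.Agent.P013.H1

open Finset

/-- Mertens' theorem for sets of primes in `(y, z]`. -/
lemma mert : ∃ C : ℝ, 0 ≤ C ∧ ∀ y z : ℝ, 4 ≤ y → y ≤ z → ∀ S : Finset ℕ,
    (∀ p ∈ S, p.Prime ∧ y < p ∧ (p : ℝ) ≤ z) →
    ∑ p ∈ S, (1 : ℝ) / p ≤ Real.log (Real.log z / Real.log y) + C / Real.log y := by
  obtain ⟨B, C0, hC0⟩ := P031.mertens_two
  refine ⟨4 * |C0| + 2, by positivity, ?_⟩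
  intro y z hy hyz S hS
  have hy0 : 0 < y := by linarith
  have hz0 : 0 < z := by linarith
  have hly : 1 < Real.log y := by
    have h1 : Real.log 4 ≤ Real.log y := Real.log_le_log (by norm_num) hy
    have h2 : Real.log 4 = 2 * Real.log 2 := by
      rw [show (4 : ℝ) = 2 ^ 2 by norm_num, Real.log_pow]; push_cast; ring
    have := Real.log_two_gt_d9
    linarith
  have hlyz : Real.log y ≤ Real.log z := Real.log_le_log hy0 hyz
  set n1 := ⌊y⌋₊ with hn1
  set n2 := ⌊z⌋₊ with hn2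
  have hn1y : (n1 : ℝ) ≤ y := Nat.floor_le hy0.le
  have hn2z : (n2 : ℝ) ≤ z := Nat.floor_le hz0.le
  have h4n1 : 4 ≤ n1 := Nat.le_floor (by exact_mod_cast hy)
  have h12 : n1 ≤ n2 := Nat.floor_le_floor hyz
  have hyn1 : y / 2 ≤ n1 := by
    have := Nat.lt_floor_add_one y
    have h4 : (4 : ℝ) ≤ n1 := by exact_mod_cast h4n1
    linarith
  have hsub : S ⊆ Nat.primesLE n2 \ Nat.primesLE n1 := by
    intro p hp
    obtain ⟨h1, h2, h3⟩ := hS p hp
    rw [Finset.mem_sdiff, Nat.mem_primesLE, Nat.mem_primesLE]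
    refine ⟨⟨Nat.le_floor h3, h1⟩, fun h4 => ?_⟩
    have : (p : ℝ) ≤ n1 := by exact_mod_cast h4.1
    linarith
  have hsub2 : Nat.primesLE n1 ⊆ Nat.primesLE n2 := by
    intro p hp
    rw [Nat.mem_primesLE] at hp ⊢
    exact ⟨hp.1.trans h12, hp.2⟩
  have h5 : ∑ p ∈ S, (1 : ℝ) / p ≤ ∑ p ∈ Nat.primesLE n2 \ Nat.primesLE n1, (1 : ℝ) / p :=
    Finset.sum_le_sum_of_subset_of_nonneg hsub fun p _ _ => by positivity
  have h6 : ∑ p ∈ Nat.primesLE n2 \ Nat.primesLE n1, (1 : ℝ) / p =
      ∑ p ∈ Nat.primesLE n2, (1 : ℝ) / p - ∑ p ∈ Nat.primesLE n1, (1 : ℝ) / p := by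
    rw [← Finset.sum_sdiff hsub2]
    ring
  have h7 := abs_le.1 (hC0 n1 (by omega))
  have h8 := abs_le.1 (hC0 n2 (by omega))
  have hn1R : (4 : ℝ) ≤ n1 := by exact_mod_cast h4n1
  have hl2 : 0 < Real.log 2 := Real.log_pos (by norm_num)
  have hl2' := Real.log_two_lt_d9
  have hln1 : Real.log y - Real.log 2 ≤ Real.log n1 := by
    rw [← Real.log_div hy0.ne' two_ne_zero]
    exact Real.log_le_log (by positivity) hyn1
  have hly4 : 2 * Real.log 2 ≤ Real.log y := by
    have h1 : Real.log 4 ≤ Real.log y := Real.log_le_log (by norm_num) hy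
    have h2 : Real.log 4 = 2 * Real.log 2 := by
      rw [show (4 : ℝ) = 2 ^ 2 by norm_num, Real.log_pow]; push_cast; ring
    linarith
  have hln1' : Real.log y / 2 ≤ Real.log n1 := by linarith
  have hln1y : Real.log n1 ≤ Real.log y := Real.log_le_log (by linarith) hn1y
  have hln12 : Real.log n1 ≤ Real.log n2 := Real.log_le_log (by linarith) (by exact_mod_cast h12)
  have hn2R : (4 : ℝ) ≤ n2 := hn1R.trans (by exact_mod_cast h12)
  have hln2z : Real.log n2 ≤ Real.log z := Real.log_le_log (by linarith) hn2z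
  have hpos1 : 0 < Real.log n1 := by linarith
  have hpos2 : 0 < Real.log n2 := by linarith
  have e1 : C0 / Real.log n2 ≤ |C0| / Real.log y * 2 := by
    calc C0 / Real.log n2 ≤ |C0| / Real.log n2 := by gcongr; exact le_abs_self _
      _ ≤ |C0| / (Real.log y / 2) := by gcongr; linarith
      _ = _ := by field_simp
  have e2 : C0 / Real.log n1 ≤ |C0| / Real.log y * 2 := by
    calc C0 / Real.log n1 ≤ |C0| / Real.log n1 := by gcongr; exact le_abs_self _
      _ ≤ |C0| / (Real.log y / 2) := by gcongr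
      _ = _ := by field_simp
  have e3 : Real.log (Real.log n2) ≤ Real.log (Real.log z) := Real.log_le_log hpos2 hln2z
  have e4 : Real.log (Real.log y) - 2 * Real.log 2 / Real.log y ≤ Real.log (Real.log n1) := by
    have hlogy0 : 0 < Real.log y := by linarith
    set t := Real.log 2 / Real.log y with ht
    have ht0 : 0 ≤ t := by positivity
    have ht1 : t ≤ 1 / 2 := by
      rw [ht, div_le_iff₀ hlogy0]; linarith
    have h9 : Real.log y * (1 - t) ≤ Real.log n1 := by
      rw [mul_sub, mul_one, ht, mul_div_cancel₀ _ hlogy0.ne']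
      exact hln1
    have h10 : Real.log (Real.log y * (1 - t)) ≤ Real.log (Real.log n1) :=
      Real.log_le_log (mul_pos hlogy0 (by linarith)) h9
    rw [Real.log_mul hlogy0.ne' (by linarith)] at h10
    have h11 : -(2 * t) ≤ Real.log (1 - t) := by
      have h12 := Real.one_sub_inv_le_log_of_pos (x := 1 - t) (by linarith)
      have h13 : -(2 * t) ≤ 1 - (1 - t)⁻¹ := by
        have h14 : (1 - t)⁻¹ ≤ 1 + 2 * t := by
          rw [inv_le_iff_one_le_mul₀ (by linarith)]
          nlinarith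
        linarith
      linarith
    have h15 : 2 * Real.log 2 / Real.log y = 2 * t := by rw [ht]; ring
    rw [h15]
    linarith
  have e5 : Real.log (Real.log z / Real.log y) = Real.log (Real.log z) - Real.log (Real.log y) :=
    Real.log_div (by linarith) (by linarith)
  have e6 : 2 * Real.log 2 / Real.log y ≤ 2 / Real.log y := by
    gcongr
    linarith
  have e7 : (4 * |C0| + 2) / Real.log y =
      |C0| / Real.log y * 2 + |C0| / Real.log y * 2 + 2 / Real.log y := by ring
  rw [h6] at h5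
  have key : ∑ p ∈ S, (1 : ℝ) / p ≤ Real.log (Real.log z / Real.log y) +
      (|C0| / Real.log y * 2 + |C0| / Real.log y * 2 + 2 / Real.log y) := by
    rw [e5]
    linarith [h7.1, h7.2, h8.1, h8.2]
  rw [e7]
  exact key

/-- Primes in `(k^α, k^β]`. -/
lemma mid (α β η : ℝ) (hα : 0 < α) (hαβ : α ≤ β) (hη : 0 < η) : ∃ k₀ : ℕ, ∀ k : ℕ, k₀ ≤ k →
    ∀ S : Finset ℕ, (∀ p ∈ S, p.Prime ∧ (k : ℝ) ^ α < p ∧ (p : ℝ) ≤ (k : ℝ) ^ β) →
    ∑ p ∈ S, (1 : ℝ) / p ≤ Real.log (β / α) + η := by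
  obtain ⟨C, hC, h⟩ := mert
  set T : ℝ := max (Real.log 4 / α) (max 1 (C / (α * η))) with hT
  obtain ⟨k₀, hk₀⟩ := exists_nat_ge (Real.exp T)
  refine ⟨max k₀ 1, fun k hk S hS => ?_⟩
  have hk1 : 1 ≤ k := le_trans (le_max_right _ _) hk
  have hkR : (0 : ℝ) < k := by exact_mod_cast hk1
  have hlk : T ≤ Real.log k := by
    rw [Real.le_log_iff_exp_le hkR]
    exact hk₀.trans (by exact_mod_cast le_trans (le_max_left _ _) hk)
  have hlk1 : 1 ≤ Real.log k := le_trans ((le_max_left _ _).trans (le_max_right _ _)) hlk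
  have hy : (4 : ℝ) ≤ (k : ℝ) ^ α := by
    rw [← Real.log_le_log_iff (by norm_num) (by positivity), Real.log_rpow hkR]
    have : Real.log 4 / α ≤ Real.log k := (le_max_left _ _).trans hlk
    rw [div_le_iff₀ hα] at this
    linarith
  have hyz : (k : ℝ) ^ α ≤ (k : ℝ) ^ β :=
    Real.rpow_le_rpow_of_exponent_le (by exact_mod_cast hk1) hαβ
  have h1 := h _ _ hy hyz S hS
  have hlk0 : Real.log k ≠ 0 := by linarith
  rw [Real.log_rpow hkR, Real.log_rpow hkR, mul_div_mul_right _ _ hlk0] at h1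
  have h2 : C / (α * Real.log k) ≤ η := by
    have h3 : C / (α * η) ≤ Real.log k :=
      ((le_max_right _ _).trans (le_max_right _ _)).trans hlk
    rw [div_le_iff₀ (by positivity)] at h3 ⊢
    linarith
  linarith

/-- At most `k` primes larger than `k^β`. -/
lemma tail (β η : ℝ) (hβ : 0 < β) (hβ1 : β ≤ 1) (hη : 0 < η) : ∃ k₀ : ℕ, ∀ k : ℕ, k₀ ≤ k →
    ∀ S : Finset ℕ, S.card ≤ k → (∀ p ∈ S, p.Prime ∧ (k : ℝ) ^ β < p) →
    ∑ p ∈ S, (1 : ℝ) / p ≤ Real.log (1 / β) + η := by
  obtain ⟨C, hC, h⟩ := mert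
  set L : ℝ := max 1 (4 / η) with hL
  have hL1 : 1 ≤ L := le_max_left _ _
  have hL0 : 0 < L := by linarith
  have hlL : 0 ≤ Real.log L := Real.log_nonneg hL1
  set T : ℝ := max (Real.log 4 / β) (max 1 ((Real.log L + C / β) * 2 / η)) with hT
  obtain ⟨k₀, hk₀⟩ := exists_nat_ge (Real.exp T)
  refine ⟨max k₀ 1, fun k hk S hSk hS => ?_⟩
  have hk1 : 1 ≤ k := le_trans (le_max_right _ _) hk
  have hkR : (0 : ℝ) < k := by exact_mod_cast hk1
  have hkR1 : (1 : ℝ) ≤ k := by exact_mod_cast hk1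
  have hlk : T ≤ Real.log k := by
    rw [Real.le_log_iff_exp_le hkR]
    exact hk₀.trans (by exact_mod_cast le_trans (le_max_left _ _) hk)
  have hlk1 : 1 ≤ Real.log k := le_trans ((le_max_left _ _).trans (le_max_right _ _)) hlk
  have hlk0 : Real.log k ≠ 0 := by linarith
  have hy : (4 : ℝ) ≤ (k : ℝ) ^ β := by
    rw [← Real.log_le_log_iff (by norm_num) (by positivity), Real.log_rpow hkR]
    have : Real.log 4 / β ≤ Real.log k := (le_max_left _ _).trans hlk
    rw [div_le_iff₀ hβ] at this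
    linarith
  have hyz : (k : ℝ) ^ β ≤ k * L := by
    calc (k : ℝ) ^ β ≤ (k : ℝ) ^ (1 : ℝ) := Real.rpow_le_rpow_of_exponent_le hkR1 hβ1
      _ = k := Real.rpow_one _
      _ ≤ k * L := le_mul_of_one_le_right hkR.le hL1
  have hsplit : ∑ p ∈ S, (1 : ℝ) / p =
      ∑ p ∈ S.filter (fun p : ℕ => (p : ℝ) ≤ k * L), (1 : ℝ) / p +
      ∑ p ∈ S.filter (fun p : ℕ => ¬ (p : ℝ) ≤ k * L), (1 : ℝ) / p :=
    (Finset.sum_filter_add_sum_filter_not S _ _).symm
  have h1 := h _ _ hy hyz (S.filter fun p : ℕ => (p : ℝ) ≤ k * L) (by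
    intro p hp
    rw [Finset.mem_filter] at hp
    exact ⟨(hS p hp.1).1, (hS p hp.1).2, hp.2⟩)
  have h2 : ∑ p ∈ S.filter (fun p : ℕ => ¬ (p : ℝ) ≤ k * L), (1 : ℝ) / p ≤ η / 4 := by
    calc _ ≤ ∑ p ∈ S.filter (fun p : ℕ => ¬ (p : ℝ) ≤ k * L), (1 : ℝ) / (k * L) := by
          refine Finset.sum_le_sum fun p hp => ?_
          rw [Finset.mem_filter, not_le] at hp
          exact one_div_le_one_div_of_le (by positivity) hp.2.le
      _ = (S.filter (fun p : ℕ => ¬ (p : ℝ) ≤ k * L)).card * (1 / (k * L)) := by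
          rw [Finset.sum_const, nsmul_eq_mul]
      _ ≤ k * (1 / (k * L)) := by
          refine mul_le_mul_of_nonneg_right ?_ (by positivity)
          exact_mod_cast (Finset.card_filter_le _ _).trans hSk
      _ = 1 / L := by field_simp
      _ ≤ η / 4 := by
          rw [div_le_iff₀ hL0]
          have : 4 / η ≤ L := le_max_right _ _
          rw [div_le_iff₀ hη] at this
          linarith
  have h3 : Real.log (Real.log (k * L) / Real.log ((k : ℝ) ^ β)) ≤
      Real.log (1 / β) + Real.log L / Real.log k := by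
    rw [Real.log_rpow hkR, Real.log_mul hkR.ne' hL0.ne']
    have e : (Real.log k + Real.log L) / (β * Real.log k) =
        (1 / β) * (1 + Real.log L / Real.log k) := by
      field_simp
    have hq : 0 ≤ Real.log L / Real.log k := by positivity
    rw [e, Real.log_mul (by positivity) (by positivity)]
    have := Real.log_le_sub_one_of_pos (x := 1 + Real.log L / Real.log k) (by positivity)
    linarith
  have h4 : Real.log L / Real.log k + C / Real.log ((k : ℝ) ^ β) ≤ η / 2 := by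
    rw [Real.log_rpow hkR]
    have e : Real.log L / Real.log k + C / (β * Real.log k) =
        (Real.log L + C / β) / Real.log k := by
      field_simp
    rw [e, div_le_iff₀ (by linarith)]
    have h5 : (Real.log L + C / β) * 2 / η ≤ Real.log k :=
      ((le_max_right _ _).trans (le_max_right _ _)).trans hlk
    rw [div_le_iff₀ hη] at h5
    linarith
  rw [hsplit]
  linarith

end Vale.Agent.P013.H1
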