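import Vale.Agent.P013.H1.Red
import Vale.Agent.P013.H1.PrimeSum

/-!
# P013: the linear bound
-/

namespace Vale.Agent.P013.H1

open Finset

lemma card_big_le (n : ℕ) (y : ℝ) : (big n y).card ≤ n.primeFactors.card :=
  Finset.card_filter_le _ _

theorem one (β : ℝ) (hβ : Real.exp (-1) < β) (hβ1 : β ≤ 1) :
    ∃ (C : ℝ) (k₀ : ℕ), ∀ n : ℕ, n ≠ 0 → k₀ ≤ n.primeFactors.card →
      (jac n : ℝ) ≤ C * n.primeFactors.card * smallPart n ((n.primeFactors.card : ℝ) ^ β) := by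
  have hβ0 : 0 < β := lt_trans (Real.exp_pos _) hβ
  have hl : Real.log (1 / β) < 1 := by
    rw [one_div, Real.log_inv]
    have : -1 < Real.log β := (Real.lt_log_iff_exp_lt hβ0).2 hβ
    linarith
  set η : ℝ := (1 - Real.log (1 / β)) / 2 with hη
  have hη0 : 0 < η := by rw [hη]; linarith
  obtain ⟨k₀, hk₀⟩ := tail β η hβ0 hβ1 hη0
  refine ⟨1 / η + 1, max k₀ 1, fun n hn hk => ?_⟩
  set k := n.primeFactors.card with hkdef
  have hk1 : 1 ≤ k := le_trans (le_max_right _ _) hk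
  have hkR : (1 : ℝ) ≤ k := by exact_mod_cast hk1
  have hsum := hk₀ k (le_trans (le_max_left _ _) hk) (big n ((k : ℝ) ^ β)) (card_big_le n _)
    (fun p hp => ⟨Nat.prime_of_mem_primeFactors (mem_big.1 hp).1, (mem_big.1 hp).2⟩)
  set m := ⌊(k : ℝ) / η⌋₊ + 1 with hm
  have hm1 : (k : ℝ) / η < m := by
    rw [hm]; push_cast; exact Nat.lt_floor_add_one _
  have hm2 : (m : ℝ) ≤ k / η + 1 := by
    rw [hm]; push_cast
    linarith [Nat.floor_le (a := (k : ℝ) / η) (by positivity)]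
  have h1 : jac n ≤ m * smallPart n ((k : ℝ) ^ β) := by
    refine union_bound hn _ m ?_
    have h2 : η ≤ 1 - ∑ p ∈ big n ((k : ℝ) ^ β), (1 : ℝ) / p := by
      have : Real.log (1 / β) + η = 1 - η := by rw [hη]; ring
      linarith
    have h3 : (k : ℝ) < m * η := by
      rwa [div_lt_iff₀ hη0] at hm1
    have h4 : ((big n ((k : ℝ) ^ β)).card : ℝ) ≤ k := by exact_mod_cast card_big_le n _
    have h5 : (m : ℝ) * η ≤ m * (1 - ∑ p ∈ big n ((k : ℝ) ^ β), (1 : ℝ) / p) :=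
      mul_le_mul_of_nonneg_left h2 (by positivity)
    linarith
  have h6 : (jac n : ℝ) ≤ m * smallPart n ((k : ℝ) ^ β) := by exact_mod_cast h1
  refine h6.trans (mul_le_mul_of_nonneg_right ?_ (by positivity))
  calc (m : ℝ) ≤ k / η + 1 := hm2
    _ ≤ k / η + k := by linarith
    _ = (1 / η + 1) * k := by ring

end Vale.Agent.P013.H1
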