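import Vale.Agent.P013.H1.Count

/-!
# P013: reduction to a progression, and the union bound
-/

namespace Vale.Agent.P013.H1

open Finset

/-- The prime factors `p > y` of `n`. -/
noncomputable def big (n : ℕ) (y : ℝ) : Finset ℕ := n.primeFactors.filter fun p : ℕ => y < p

lemma mem_big {n : ℕ} {y : ℝ} {p : ℕ} : p ∈ big n y ↔ p ∈ n.primeFactors ∧ y < p := by
  simp [big]

lemma smallPart_pos (n : ℕ) (y : ℝ) : 0 < smallPart n y :=
  Finset.prod_pos fun p hp => (Nat.prime_of_mem_primeFactors (Finset.mem_filter.1 hp).1).pos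

lemma coprime_of_big {n : ℕ} {y : ℝ} {d : ℕ} (hd : ∀ p : ℕ, p.Prime → p ∣ d → y < (p : ℝ)) :
    Nat.Coprime (smallPart n y) d := by
  unfold smallPart
  refine Nat.Coprime.prod_left fun p hp => ?_
  rw [Finset.mem_filter] at hp
  have hpp := Nat.prime_of_mem_primeFactors hp.1
  rw [hpp.coprime_iff_not_dvd]
  intro h
  exact absurd (hd p hpp h) (not_lt.2 hp.2)

/-- Reduction to a progression. -/
lemma red {n : ℕ} (hn : n ≠ 0) (y : ℝ) (m : ℕ) (hm : 0 < m)
    (h : ∀ x0 : ℤ, ∃ i < m, ∀ p ∈ big n y, ¬ (p : ℤ) ∣ x0 + (i : ℕ) * (smallPart n y : ℤ)) :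
    jac n ≤ m * smallPart n y := by
  set M := smallPart n y with hM
  have hM0 : 0 < M := smallPart_pos n y
  have hMz : (0 : ℤ) < M := by exact_mod_cast hM0
  refine Nat.sInf_le ⟨Nat.mul_pos hm hM0, fun a => ?_⟩
  set x0 : ℤ := a + (1 - a) % M with hx0
  have hr0 : 0 ≤ (1 - a) % (M : ℤ) := Int.emod_nonneg _ hMz.ne'
  have hr1 : (1 - a) % (M : ℤ) < M := Int.emod_lt_of_pos _ hMz
  obtain ⟨i, him, hi⟩ := h x0
  refine ⟨((1 - a) % (M : ℤ)).toNat + i * M, ?_, ?_⟩
  · have h1 : ((1 - a) % (M : ℤ)).toNat < M := by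
      have : (((1 - a) % (M : ℤ)).toNat : ℤ) < M := by rw [Int.toNat_of_nonneg hr0]; exact hr1
      exact_mod_cast this
    calc ((1 - a) % (M : ℤ)).toNat + i * M < M + i * M := by omega
      _ = (i + 1) * M := by ring
      _ ≤ m * M := Nat.mul_le_mul_right _ him
  · have e : a + (((((1 - a) % (M : ℤ)).toNat + i * M : ℕ)) : ℤ) = x0 + i * M := by
      push_cast
      rw [Int.toNat_of_nonneg hr0, hx0]
      ring
    rw [e]
    rw [Int.isCoprime_iff_gcd_eq_one]
    by_contra hg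
    obtain ⟨p, hp, hpg⟩ := Nat.exists_prime_and_dvd hg
    have hpx : (p : ℤ) ∣ x0 + i * M :=
      (Int.natCast_dvd_natCast.2 hpg).trans (Int.gcd_dvd_left _ _)
    have hpn : p ∣ n := by
      have : (p : ℤ) ∣ n := (Int.natCast_dvd_natCast.2 hpg).trans (Int.gcd_dvd_right _ _)
      exact_mod_cast this
    have hpf : p ∈ n.primeFactors := Nat.mem_primeFactors.2 ⟨hp, hpn, hn⟩
    by_cases hy : (p : ℝ) ≤ y
    · have hpM : p ∣ M := by
        rw [hM]
        exact Finset.dvd_prod_of_mem _ (Finset.mem_filter.2 ⟨hpf, hy⟩)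
      have hpMz : (p : ℤ) ∣ M := by exact_mod_cast hpM
      have h2 : (p : ℤ) ∣ x0 := (dvd_add_left (dvd_mul_of_dvd_right hpMz _)).1 hpx
      have h3 : (M : ℤ) ∣ x0 - 1 := by
        have h4 : (M : ℤ) ∣ (1 - a) - (1 - a) % M := Int.dvd_self_sub_emod
        have : x0 - 1 = -((1 - a) - (1 - a) % M) := by rw [hx0]; ring
        rw [this]
        exact (dvd_neg).2 h4
      have h5 : (p : ℤ) ∣ 1 := by
        have := dvd_sub h2 (hpMz.trans h3)
        simpa using this
      have h6 : p ∣ 1 := by exact_mod_cast h5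
      exact hp.one_lt.ne' (Nat.dvd_one.1 h6)
    · exact hi p (mem_big.2 ⟨hpf, not_le.1 hy⟩) hpx

/-- The union bound. -/
lemma union_bound {n : ℕ} (hn : n ≠ 0) (y : ℝ) (m : ℕ)
    (h : (big n y).card < (m : ℝ) * (1 - ∑ p ∈ big n y, (1 : ℝ) / p)) :
    jac n ≤ m * smallPart n y := by
  have hm : 0 < m := by
    rcases Nat.eq_zero_or_pos m with rfl | hm
    · exfalso
      have : (0 : ℝ) ≤ ((big n y).card : ℝ) := by positivity
      simp at h
      linarith
    · exact hm
  refine red hn y m hm fun x0 => ?_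
  by_contra hcon
  push Not at hcon
  set M := smallPart n y with hM
  have h1 : (range m).card ≤ ∑ p ∈ big n y,
      ((range m).filter fun i : ℕ => (p : ℤ) ∣ x0 + i * M).card := by
    have hsub : range m ⊆ (big n y).biUnion fun p =>
        (range m).filter fun i : ℕ => (p : ℤ) ∣ x0 + i * M := by
      intro i hi
      obtain ⟨p, hp, hpi⟩ := hcon i (Finset.mem_range.1 hi)
      rw [Finset.mem_biUnion]
      exact ⟨p, hp, Finset.mem_filter.2 ⟨hi, hpi⟩⟩
    exact (Finset.card_le_card hsub).trans Finset.card_biUnion_le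
  rw [Finset.card_range] at h1
  have h2 : (m : ℝ) ≤ ∑ p ∈ big n y,
      (((range m).filter fun i : ℕ => (p : ℤ) ∣ x0 + i * M).card : ℝ) := by exact_mod_cast h1
  have h3 : ∑ p ∈ big n y,
      (((range m).filter fun i : ℕ => (p : ℤ) ∣ x0 + i * M).card : ℝ) ≤
      ∑ p ∈ big n y, ((m : ℝ) * (1 / p) + 1) := by
    refine Finset.sum_le_sum fun p hp => ?_
    have hp' := mem_big.1 hp
    have hpp := Nat.prime_of_mem_primeFactors hp'.1
    have := count x0 M p m hpp.one_lt.le (coprime_of_big fun q hq hqp => by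
      rw [(Nat.prime_dvd_prime_iff_eq hq hpp).1 hqp]
      exact hp'.2)
    have h4 := (abs_le.1 this).2
    have e : (m : ℝ) * (1 / p) = m / p := by ring
    linarith
  rw [Finset.sum_add_distrib, ← Finset.mul_sum, Finset.sum_const, nsmul_eq_mul, mul_one] at h3
  nlinarith

end Vale.Agent.P013.H1
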